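import Vale.Agent.P134.Recur.Main

/-!
# De Giorgi's statement for solutions recurrent in all directions but three
-/

namespace Vale.Agent.Results.P134.RecurrentCodimThree

open Vale.Agent.P134.Periodic Vale.Agent.P134.Slab Vale.Agent.P134.Recur

/-- In every dimension a bounded monotone entire Allen-Cahn solution which is approximately recurrent
along all coordinate axes but three is one-dimensional; periodic solutions are recurrent, and the
hypotheses are satisfiable. -/
theorem result :
    (∀ (n : ℕ) (a b d : Fin n) (u : (Fin n → ℝ) → ℝ), a ≠ b → a ≠ d → b ≠ d →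
      IsMonotoneSolution a u → IsRecurrentOffThree a b d u → IsOneDimensional u) ∧
    (∀ (n : ℕ) (a b d : Fin n) (u : (Fin n → ℝ) → ℝ),
      IsPeriodicOffThree a b d u → IsRecurrentOffThree a b d u) ∧
    ∀ (n : ℕ) (a b d : Fin n), ∃ u, IsMonotoneSolution a u ∧ IsRecurrentOffThree a b d u := by
  refine ⟨fun n a b d u hab had hbd hu hr => ?_, fun n a b d u hp => .of_periodic hp,
    fun n a b d => ?_⟩
  · obtain ⟨m, rfl⟩ : ∃ m, n = m + 1 := ⟨n - 1, by have := a.pos; omega⟩
    exact Vale.Agent.P134.Recur.one_dimensional a b d hab had hbd u hu hr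
  · obtain ⟨u, hu, hp⟩ := Vale.Agent.P134.Slab.exists_instance a b d
    exact ⟨u, hu, .of_periodic hp⟩

end Vale.Agent.Results.P134.RecurrentCodimThree
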