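import Vale.Agent.P134.Sym.Main

/-!
# De Giorgi's statement in dimensions four to seven for rotationally symmetric solutions
-/

namespace Vale.Agent.Results.P134.RotationalSymmetryClass

open Vale.Agent.P134.Periodic Vale.Agent.P134.Sym

/-- In dimensions 4, 5, 6 a bounded monotone entire Allen-Cahn solution invariant under the orthogonal
group of `n - 2` (or more) axes other than the monotone one is one-dimensional; in dimension 7 the same
holds with `n - 1` axes; the hypotheses are satisfiable. -/
theorem result :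
    (∀ (n : ℕ) (a : Fin n) (S : Finset (Fin n)) (u : (Fin n → ℝ) → ℝ), a ∉ S →
      ((4 ≤ n ∧ n ≤ 6 ∧ n ≤ S.card + 2) ∨ (n = 7 ∧ S.card = 6)) →
      IsMonotoneSolution a u → IsRotInvariant S u → IsOneDimensional u) ∧
    ∀ (n : ℕ) (a : Fin n) (S : Finset (Fin n)), a ∉ S → ∃ u, IsMonotoneSolution a u ∧ IsRotInvariant S u := by
  refine ⟨fun n a S u haS hn hu hinv => ?_, fun n a S haS => exists_instance a S haS⟩
  obtain ⟨m, rfl⟩ : ∃ m, n = m + 1 := ⟨n - 1, by have := a.pos; omega⟩
  refine one_dimensional a S haS u hu hinv (by omega) ?_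
  rcases hn with ⟨h4, h6, hc⟩ | ⟨h7, hc⟩
  · have e : (m : ℝ) ≤ S.card + 1 := by exact_mod_cast (show m ≤ S.card + 1 by omega)
    have e3 : (3 : ℝ) ≤ m := by exact_mod_cast (show 3 ≤ m by omega)
    have e5 : (m : ℝ) ≤ 5 := by exact_mod_cast (show m ≤ 5 by omega)
    nlinarith
  · obtain rfl : m = 6 := by omega
    rw [hc]
    norm_num

end Vale.Agent.Results.P134.RotationalSymmetryClass
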